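/-
P318, part S3 (helper340): geometry and certificates.

`a : κ → ι → K` columns, `pi a v = ∑ j, v j • a j (a j)ᵀ`, `delta a z v = det (pi a v + diag (1 + z))`.
Along every line whose direction `r` has `pi a r` of rank at most one, `delta a z` is affine, and
`delta_z * delta_w - [z = w] delta_z` is a combination of the functions `v j` (`j` not systematic) and
`v j ^ 2 + v j` (`j` systematic) with coefficients of degree at most three along these lines.
-/
import Mathlib

namespace Vale.Agent.P318.Cert

set_option linter.unusedSimpArgs false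
set_option linter.unusedSectionVars false

open Matrix Polynomial

/-! ### Degree along lines -/

section LineDeg

variable {K V : Type*} [CommRing K] [AddCommGroup V] [Module K V]

/-- Restricted to every line with direction `r`, the function `g` is a polynomial of degree at most `d`. -/
def LineDeg (d : ℕ) (r : V) (g : V → K) : Prop :=
  ∀ x : V, ∃ p : K[X], p.natDegree ≤ d ∧ ∀ t : K, g (x + t • r) = p.eval t

theorem LineDeg.mono {d e : ℕ} {r : V} {g : V → K} (h : LineDeg d r g) (hde : d ≤ e) :
    LineDeg e r g := fun x => by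
  obtain ⟨p, hp, hg⟩ := h x
  exact ⟨p, hp.trans hde, hg⟩

theorem lineDeg_const (d : ℕ) (r : V) (c : K) : LineDeg d r (fun _ => c) := fun _ =>
  ⟨C c, by simp, fun t => by simp⟩

theorem LineDeg.add {d : ℕ} {r : V} {g h : V → K} (hg : LineDeg d r g) (hh : LineDeg d r h) :
    LineDeg d r (fun v => g v + h v) := fun x => by
  obtain ⟨p, hp, hg⟩ := hg x
  obtain ⟨q, hq, hh⟩ := hh x
  exact ⟨p + q, (natDegree_add_le p q).trans (max_le hp hq), fun t => by simp [hg, hh]⟩

theorem LineDeg.neg {d : ℕ} {r : V} {g : V → K} (hg : LineDeg d r g) :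
    LineDeg d r (fun v => - g v) := fun x => by
  obtain ⟨p, hp, hg⟩ := hg x
  exact ⟨-p, by simpa using hp, fun t => by simp [hg]⟩

theorem LineDeg.sub {d : ℕ} {r : V} {g h : V → K} (hg : LineDeg d r g) (hh : LineDeg d r h) :
    LineDeg d r (fun v => g v - h v) := by
  simpa [sub_eq_add_neg] using hg.add hh.neg

theorem LineDeg.mul {d e : ℕ} {r : V} {g h : V → K} (hg : LineDeg d r g) (hh : LineDeg e r h) :
    LineDeg (d + e) r (fun v => g v * h v) := fun x => by
  obtain ⟨p, hp, hg⟩ := hg x
  obtain ⟨q, hq, hh⟩ := hh x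
  exact ⟨p * q, (natDegree_mul_le).trans (add_le_add hp hq), fun t => by simp [hg, hh]⟩

theorem LineDeg.const_mul {d : ℕ} {r : V} {g : V → K} (c : K) (hg : LineDeg d r g) :
    LineDeg d r (fun v => c * g v) := by
  simpa using (lineDeg_const 0 r c).mul hg

theorem LineDeg.mul_const {d : ℕ} {r : V} {g : V → K} (c : K) (hg : LineDeg d r g) :
    LineDeg d r (fun v => g v * c) := by
  simpa using hg.mul (lineDeg_const 0 r c)

theorem LineDeg.sum {α : Type*} {d : ℕ} {r : V} {s : Finset α} {g : α → V → K}
    (hg : ∀ i ∈ s, LineDeg d r (g i)) : LineDeg d r (fun v => ∑ i ∈ s, g i v) := by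
  classical
  induction s using Finset.induction_on with
  | empty => simpa using lineDeg_const d r (0 : K)
  | insert i s hi ih =>
    simp only [Finset.sum_insert hi]
    exact (hg i (Finset.mem_insert_self i s)).add
      (ih fun j hj => hg j (Finset.mem_insert_of_mem hj))

theorem LineDeg.ite {d : ℕ} {r : V} {g h : V → K} (P : Prop) [Decidable P]
    (hg : P → LineDeg d r g) (hh : ¬ P → LineDeg d r h) :
    LineDeg d r (fun v => if P then g v else h v) := by
  by_cases hP : P
  · simpa [hP] using hg hP
  · simpa [hP] using hh hP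

theorem LineDeg.prod {α : Type*} {r : V} {s : Finset α} {d : α → ℕ} {g : α → V → K}
    (hg : ∀ i ∈ s, LineDeg (d i) r (g i)) : LineDeg (∑ i ∈ s, d i) r (fun v => ∏ i ∈ s, g i v) := by
  classical
  induction s using Finset.induction_on with
  | empty => simpa using lineDeg_const 0 r (1 : K)
  | insert i s hi ih =>
    simp only [Finset.sum_insert hi, Finset.prod_insert hi]
    exact (hg i (Finset.mem_insert_self i s)).mul
      (ih fun j hj => hg j (Finset.mem_insert_of_mem hj))

/-- Affine functions have degree at most one along every line. -/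
theorem lineDeg_affine (r : V) (g : V → K) (c : K) (h : ∀ x (t : K), g (x + t • r) = g x + t * c) :
    LineDeg 1 r g := fun x =>
  ⟨C (g x) + C c * X, by
    refine (natDegree_add_le _ _).trans (max_le (by simp) ?_)
    exact (natDegree_C_mul_le _ _).trans natDegree_X_le, fun t => by
      rw [h]; simp only [eval_add, eval_C, eval_mul, eval_X]; ring⟩

theorem lineDeg_linear (r : V) (g : V →ₗ[K] K) : LineDeg 1 r (fun v => g v) :=
  lineDeg_affine r _ (g r) fun x t => by simp

/-- Composition with an affine map. -/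
theorem LineDeg.comp {W : Type*} [AddCommGroup W] [Module K W] {d : ℕ} {r : V} {s : W}
    {g : W → K} (hg : LineDeg d s g) (f : V → W) (hf : ∀ x (t : K), f (x + t • r) = f x + t • s) :
    LineDeg d r (fun v => g (f v)) := fun x => by
  obtain ⟨p, hp, hg⟩ := hg (f x)
  exact ⟨p, hp, fun t => by show g (f (x + t • r)) = _; rw [hf, hg]⟩

end LineDeg

/-! ### Rank one updates -/

section RankOne

variable {K ι : Type*} [CommRing K] [Fintype ι] [DecidableEq ι]

/-- The determinant is affine along a line in a rank one direction. -/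
theorem det_add_smul_vecMulVec (A : Matrix ι ι K) (u w : ι → K) :
    ∃ c : K, ∀ t : K, (A + t • vecMulVec u w).det = A.det + t * c := by
  have key : ∀ t : K, (A + t • vecMulVec u w).det =
      (fromBlocks (1 : Matrix Unit Unit K) (of fun _ j => t * - w j) (of fun i _ => u i) A).det := by
    intro t
    rw [det_fromBlocks_one₁₁]
    congr 1
    ext i j
    simp [vecMulVec, Matrix.mul_apply]
    ring
  have hrow : ∀ t : K,
      fromBlocks (1 : Matrix Unit Unit K) (of fun _ j => t * - w j) (of fun i _ => u i) A =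
      updateRow (fromBlocks (1 : Matrix Unit Unit K) (0 : Matrix Unit ι K) (of fun i _ => u i) A)
        (Sum.inl ()) ((Sum.elim (fun _ => 1) (fun _ => 0)) + t • (Sum.elim (fun _ => 0) (fun j => - w j))) := by
    intro t
    ext i j
    rcases i with i | i <;> rcases j with j | j <;> simp [updateRow_apply]
  refine ⟨(updateRow (fromBlocks (1 : Matrix Unit Unit K) (0 : Matrix Unit ι K) (of fun i _ => u i) A)
        (Sum.inl ()) (Sum.elim (fun _ => 0) (fun j => - w j))).det, fun t => ?_⟩
  rw [key t, hrow t, det_updateRow_add, det_updateRow_smul]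
  congr 1
  have h0 := key 0
  rw [hrow 0] at h0
  simp only [zero_smul, add_zero] at h0
  exact h0.symm

/-- A matrix is a *rank one direction* if it is `u wᵀ`. -/
def IsRankOne (R : Matrix ι ι K) : Prop := ∃ u w : ι → K, R = vecMulVec u w

theorem lineDeg_det {V : Type*} [AddCommGroup V] [Module K V] {r : V} {M : V → Matrix ι ι K}
    {R : Matrix ι ι K} (hR : IsRankOne R) (hM : ∀ x (t : K), M (x + t • r) = M x + t • R) :
    LineDeg 1 r (fun v => (M v).det) := fun x => by
  obtain ⟨u, w, rfl⟩ := hR
  obtain ⟨c, hc⟩ := det_add_smul_vecMulVec (M x) u w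
  refine ⟨C (M x).det + C c * X, ?_, fun t => ?_⟩
  · refine (natDegree_add_le _ _).trans (max_le (by simp) ?_)
    exact (natDegree_C_mul_le _ _).trans natDegree_X_le
  · show (M (x + t • r)).det = _
    rw [hM, hc]
    simp only [eval_add, eval_C, eval_mul, eval_X]; ring

theorem lineDeg_adjugate {V : Type*} [AddCommGroup V] [Module K V] {r : V} {M : V → Matrix ι ι K}
    {R : Matrix ι ι K} (hR : IsRankOne R) (hM : ∀ x (t : K), M (x + t • r) = M x + t • R) (i j : ι) :
    LineDeg 1 r (fun v => (M v).adjugate i j) := by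
  simp only [adjugate_apply]
  obtain ⟨u, w, rfl⟩ := hR
  refine lineDeg_det (R := vecMulVec (Function.update u j 0) w) ⟨_, _, rfl⟩ fun x t => ?_
  rw [hM]
  ext i' j'
  by_cases h : i' = j
  · subst h
    simp [vecMulVec]
  · simp [vecMulVec, updateRow_apply, h]

end RankOne

/-! ### The certificate for matrices, characteristic two -/

section Char2

variable {K ι : Type*} [CommRing K] [CharP K 2] [Fintype ι] [DecidableEq ι]

/-- `diag (1 + z)` -/
def dg (K : Type*) {ι : Type*} [CommRing K] [DecidableEq ι] (z : ι → Bool) : Matrix ι ι K :=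
  diagonal fun i => if z i then 0 else 1

theorem sum_det_dg (y : Matrix ι ι K) : ∑ z : ι → Bool, (y + dg K z).det = 1 := by
  have h := (detRowAlternating (R := K) (n := ι)).toMultilinearMap.map_sum
    (fun (i : ι) (b : Bool) => y i + (if b then (0 : ι → K) else Pi.single i 1))
  have h1 : (fun i : ι => ∑ b : Bool, (y i + (if b then (0 : ι → K) else Pi.single i 1))) =
      (1 : Matrix ι ι K) := by
    funext i
    have : ∑ b : Bool, (y i + (if b then (0 : ι → K) else Pi.single i 1)) =
        (y i + y i) + Pi.single i 1 := by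
      rw [Fintype.sum_bool]; simp; abel
    rw [this]
    have h2 : y i + y i = 0 := by
      funext j; exact CharTwo.add_self_eq_zero _
    rw [h2, zero_add]
    funext j
    simp [Matrix.one_apply, Pi.single_apply, eq_comm]
  rw [h1] at h
  have h3 : (detRowAlternating (R := K) (n := ι)).toMultilinearMap (1 : Matrix ι ι K) = 1 :=
    det_one
  rw [h3] at h
  rw [h]
  refine Finset.sum_congr rfl fun z _ => ?_
  show (y + dg K z).det = Matrix.det _
  congr 1
  funext i j
  by_cases hz : z i
  · by_cases hij : i = j <;> simp [dg, hz, diagonal_apply, hij]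
    subst hij; simp [hz]
  · by_cases hij : i = j
    · subst hij; simp [dg, hz]
    · simp [dg, hz, diagonal_apply, hij, Pi.single_apply, Ne.symm hij]

theorem det_dg_diag (z w : ι → Bool) :
    (diagonal (fun i => if w i then (1 : K) else 0) + dg K z).det = if z = w then 1 else 0 := by
  rw [dg, diagonal_add, det_diagonal]
  by_cases h : z = w
  · subst h
    simp only [if_true]
    refine Finset.prod_eq_one fun i _ => ?_
    by_cases hz : z i <;> simp [hz]
  · simp only [h, if_false]
    obtain ⟨i, hi⟩ := Function.ne_iff.1 h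
    refine Finset.prod_eq_zero (Finset.mem_univ i) ?_
    cases hz : z i <;> cases hw : w i <;> simp_all
    exact CharTwo.add_self_eq_zero _

/-- The coefficient of the off diagonal entry `y i0 l` (via `l`) in the certificate. -/
theorem det_mul_det (y : Matrix ι ι K) (z w : ι → Bool) {i0 : ι} (h : z i0 ≠ w i0) :
    (y + dg K z).det * (y + dg K w).det =
      (y i0 i0 ^ 2 + y i0 i0) * ((y + dg K w).adjugate * (y + dg K z).adjugate) i0 i0 +
      ∑ l, if l = i0 then 0 else y i0 l *
        (∑ j, ((y + dg K w) l j * ((y + dg K w).adjugate * (y + dg K z).adjugate) j i0) +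
          (y + dg K z) i0 i0 * ((y + dg K w).adjugate * (y + dg K z).adjugate) l i0) := by
  set X := y + dg K z with hX
  set Y := y + dg K w with hY
  rw [← det_mul, det_eq_sum_mul_adjugate_row _ i0, adjugate_mul_distrib]
  set G := Y.adjugate * X.adjugate with hG
  have hXl : ∀ l, l ≠ i0 → X i0 l = y i0 l := fun l hl => by
    simp [hX, dg, diagonal_apply, Ne.symm hl]
  have hYl : ∀ l, l ≠ i0 → Y i0 l = y i0 l := fun l hl => by
    simp [hY, dg, diagonal_apply, Ne.symm hl]
  have hXY : X i0 i0 * Y i0 i0 = y i0 i0 ^ 2 + y i0 i0 := by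
    cases hz : z i0 <;> cases hw : w i0 <;> simp_all [dg] <;> ring
  have e1 : ∀ j, (X * Y) i0 j * G j i0 = X i0 i0 * Y i0 j * G j i0 +
      ∑ l, if l = i0 then 0 else y i0 l * (Y l j * G j i0) := by
    intro j
    rw [Matrix.mul_apply, Finset.sum_mul, ← Finset.add_sum_erase _ _ (Finset.mem_univ i0)]
    congr 1
    rw [← Finset.add_sum_erase (Finset.univ) (fun l => if l = i0 then 0 else y i0 l * (Y l j * G j i0))
      (Finset.mem_univ i0)]
    simp only [if_true, zero_add]
    refine Finset.sum_congr rfl fun l hl => ?_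
    have hl' := Finset.ne_of_mem_erase hl
    rw [if_neg hl', hXl l hl']
    ring
  simp only [e1, Finset.sum_add_distrib]
  rw [← Finset.add_sum_erase _ _ (Finset.mem_univ i0), hXY]
  have e2 : ∑ j ∈ Finset.univ.erase i0, X i0 i0 * Y i0 j * G j i0 =
      ∑ l, if l = i0 then 0 else y i0 l * (X i0 i0 * G l i0) := by
    rw [← Finset.add_sum_erase (Finset.univ) (fun l => if l = i0 then 0 else y i0 l * (X i0 i0 * G l i0))
      (Finset.mem_univ i0)]
    simp only [if_true, zero_add]
    refine Finset.sum_congr rfl fun l hl => ?_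
    have hl' := Finset.ne_of_mem_erase hl
    rw [if_neg hl', hYl l hl']
    ring
  rw [e2, Finset.sum_comm, add_assoc, ← Finset.sum_add_distrib]
  congr 1
  refine Finset.sum_congr rfl fun l _ => ?_
  by_cases hl : l = i0
  · simp [hl]
  · simp only [hl, if_false]
    rw [← Finset.mul_sum]
    ring

/-! ### Geometry -/

variable {κ : Type*} [Fintype κ]

/-- `pi a v = ∑ j, v j • a j (a j)ᵀ`. -/
def pi (a : κ → ι → K) : (κ → K) →ₗ[K] Matrix ι ι K where
  toFun v := ∑ j, v j • vecMulVec (a j) (a j)
  map_add' v w := by simp [add_smul, Finset.sum_add_distrib]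
  map_smul' c v := by simp [Finset.smul_sum, smul_smul]

theorem pi_apply (a : κ → ι → K) (v : κ → K) (i i' : ι) :
    pi a v i i' = ∑ j, v j * (a j i * a j i') := by
  simp [pi, Matrix.sum_apply, vecMulVec]

/-- `delta a z v = det (pi a v + diag (1 + z))`. -/
def delta (a : κ → ι → K) (z : ι → Bool) (v : κ → K) : K := (pi a v + dg K z).det

/-- The multi-affine extension of a function on the cube. -/
def ext (a : κ → ι → K) (f : (ι → Bool) → K) (v : κ → K) : K := ∑ z, f z * delta a z v

variable [DecidableEq κ]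

/-- The cube points. -/
def pt (Q : ι → κ) (z : ι → Bool) : κ → K := ∑ i, if z i then Pi.single (Q i) 1 else 0

/-- The `Z`-functions: `v j` for `j` not systematic, `v j ^ 2 + v j` for `j` systematic. -/
def Zf (Q : ι → κ) (j : κ) (v : κ → K) : K := if ∃ i, Q i = j then v j ^ 2 + v j else v j

theorem sum_delta (a : κ → ι → K) (v : κ → K) : ∑ z, delta a z v = 1 := sum_det_dg _

theorem lineDeg_delta (a : κ → ι → K) (z : ι → Bool) {r : κ → K} (hr : IsRankOne (pi a r)) :
    LineDeg 1 r (delta a z) :=
  lineDeg_det (M := fun v => pi a v + dg K z) hr fun x t => by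
    simp only [map_add, map_smul]; abel

theorem lineDeg_ext (a : κ → ι → K) (f : (ι → Bool) → K) {r : κ → K}
    (hr : IsRankOne (pi a r)) : LineDeg 1 r (ext a f) :=
  LineDeg.sum fun z _ => (lineDeg_delta a z hr).const_mul (f z)

theorem pi_single (a : κ → ι → K) (Q : ι → κ) (hQ : ∀ i, a (Q i) = Pi.single i 1) (i : ι) :
    pi a (Pi.single (Q i) 1) = diagonal (Pi.single i 1) := by
  ext i' i''
  rw [pi_apply, Finset.sum_eq_single (Q i)]
  · rw [hQ]
    by_cases h1 : i' = i
    · subst h1
      by_cases h2 : i'' = i'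
      · subst h2; simp
      · simp [h2, diagonal_apply, Ne.symm h2]
    · simp [h1, diagonal_apply]
  · intro j _ hj
    simp [hj]
  · simp

theorem pi_pt (a : κ → ι → K) (Q : ι → κ) (hQ : ∀ i, a (Q i) = Pi.single i 1) (z : ι → Bool) :
    pi a (pt Q z) = diagonal (fun i => if z i then (1 : K) else 0) := by
  rw [pt, map_sum]
  have : ∀ i, pi a (if z i then (Pi.single (Q i) 1 : κ → K) else 0) =
      diagonal (Pi.single i (if z i then 1 else 0)) := by
    intro i
    by_cases hz : z i
    · simp [hz, pi_single a Q hQ]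
    · simp [hz]
  simp only [this]
  ext i' i''
  rw [Matrix.sum_apply]
  by_cases h : i' = i''
  · subst h
    simp [diagonal_apply, Pi.single_apply]
  · simp [diagonal_apply, h]

theorem delta_pt (a : κ → ι → K) (Q : ι → κ) (hQ : ∀ i, a (Q i) = Pi.single i 1)
    (z w : ι → Bool) : delta a z (pt Q w) = if z = w then 1 else 0 := by
  rw [delta, pi_pt a Q hQ, det_dg_diag]

theorem ext_pt (a : κ → ι → K) (Q : ι → κ) (hQ : ∀ i, a (Q i) = Pi.single i 1)
    (f : (ι → Bool) → K) (w : ι → Bool) : ext a f (pt Q w) = f w := by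
  simp [ext, delta_pt a Q hQ]

theorem pt_apply (Q : ι → κ) (hQi : Function.Injective Q) (z : ι → Bool) (i : ι) :
    (pt Q z : κ → K) (Q i) = if z i then 1 else 0 := by
  rw [pt, Finset.sum_apply, Finset.sum_eq_single i]
  · by_cases hz : z i <;> simp [hz]
  · intro i' _ hi'
    by_cases hz : z i'
    · simp only [hz, if_true, Pi.single_apply]
      rw [if_neg fun h => hi' (hQi h).symm]
    · simp [hz]
  · simp

theorem pt_apply_of_notMem (Q : ι → κ) (z : ι → Bool) {j : κ} (hj : ¬ ∃ i, Q i = j) :
    (pt Q z : κ → K) j = 0 := by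
  rw [pt, Finset.sum_apply]
  refine Finset.sum_eq_zero fun i _ => ?_
  by_cases hz : z i
  · have : j ≠ Q i := fun h => hj ⟨i, h.symm⟩
    simp [hz, this]
  · simp [hz]

/-- The `Z`-functions vanish at the cube points. -/
theorem Zf_pt (Q : ι → κ) (hQi : Function.Injective Q) (z : ι → Bool) (j : κ) :
    Zf Q j (pt Q z : κ → K) = 0 := by
  by_cases h : ∃ i, Q i = j
  · obtain ⟨i, rfl⟩ := h
    simp only [Zf, exists_apply_eq_apply, if_true, pt_apply Q hQi]
    cases z i
    · simp
    · simpa using CharTwo.add_self_eq_zero (1 : K)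
  · rw [Zf, if_neg h, pt_apply_of_notMem Q z h]

theorem pi_offdiag (a : κ → ι → K) (Q : ι → κ) (hQ : ∀ i, a (Q i) = Pi.single i 1)
    (v : κ → K) {i i' : ι} (h : i ≠ i') :
    pi a v i i' = ∑ j, if ∃ i, Q i = j then 0 else v j * (a j i * a j i') := by
  rw [pi_apply]
  refine Finset.sum_congr rfl fun j _ => ?_
  split_ifs with hj
  · obtain ⟨i0, rfl⟩ := hj
    rw [hQ]
    by_cases h1 : i = i0
    · subst h1; simp [h.symm]
    · simp [h1]
  · rfl

theorem pi_diag (a : κ → ι → K) (Q : ι → κ) (hQi : Function.Injective Q)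
    (hQ : ∀ i, a (Q i) = Pi.single i 1) (v : κ → K) (i : ι) :
    pi a v i i ^ 2 + pi a v i i =
      ∑ j, Zf Q j v * (if ∃ i', Q i' = j then (if Q i = j then 1 else 0) else
        v j * a j i ^ 4 + a j i ^ 2) := by
  rw [pi_apply, CharTwo.sum_sq, ← Finset.sum_add_distrib]
  refine Finset.sum_congr rfl fun j _ => ?_
  by_cases hj : ∃ i', Q i' = j
  · obtain ⟨i0, rfl⟩ := hj
    simp only [Zf, exists_apply_eq_apply, if_true, hQ, hQi.eq_iff]
    by_cases h1 : i = i0
    · subst h1; simp
    · simp [h1]
  · simp only [Zf, hj, if_false]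
    ring

/-- **Certificate lemma.** -/
theorem cert (a : κ → ι → K) (Q : ι → κ) (hQi : Function.Injective Q)
    (hQ : ∀ i, a (Q i) = Pi.single i 1) {z w : ι → Bool} (hzw : z ≠ w) :
    ∃ h : κ → (κ → K) → K, (∀ j r, IsRankOne (pi a r) → LineDeg 3 r (h j)) ∧
      ∀ v, delta a z v * delta a w v = ∑ j, Zf Q j v * h j v := by
  obtain ⟨i0, hi0⟩ := Function.ne_iff.1 hzw
  let X : (κ → K) → Matrix ι ι K := fun v => pi a v + dg K z
  let Y : (κ → K) → Matrix ι ι K := fun v => pi a v + dg K w
  let G : ι → (κ → K) → K := fun l v => ((Y v).adjugate * (X v).adjugate) l i0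
  let T : ι → (κ → K) → K := fun l v => ∑ j, (Y v l j * G j v) + X v i0 i0 * G l v
  have hX : ∀ r x (t : K), X (x + t • r) = X x + t • pi a r := fun r x t => by
    simp only [X, map_add, map_smul]; abel
  have hY : ∀ r x (t : K), Y (x + t • r) = Y x + t • pi a r := fun r x t => by
    simp only [Y, map_add, map_smul]; abel
  have dG : ∀ l r, IsRankOne (pi a r) → LineDeg 2 r (G l) := fun l r hr => by
    have : G l = fun v => ∑ m, (Y v).adjugate l m * (X v).adjugate m i0 := by
      funext v; simp [G, Matrix.mul_apply]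
    rw [this]
    exact LineDeg.sum fun m _ => (lineDeg_adjugate hr (hY r) l m).mul (lineDeg_adjugate hr (hX r) m i0)
  have dX : ∀ i i' r, LineDeg 1 r (fun v => X v i i') := fun i i' r =>
    lineDeg_affine r _ (pi a r i i') fun x t => by simp [hX]
  have dY : ∀ i i' r, LineDeg 1 r (fun v => Y v i i') := fun i i' r =>
    lineDeg_affine r _ (pi a r i i') fun x t => by simp [hY]
  have dT : ∀ l r, IsRankOne (pi a r) → LineDeg 3 r (T l) := fun l r hr =>
    (LineDeg.sum fun j _ => (dY l j r).mul (dG j r hr)).add ((dX i0 i0 r).mul (dG l r hr))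
  have dv : ∀ (j : κ) r, LineDeg 1 r (fun v : κ → K => v j) := fun j r =>
    lineDeg_affine r _ (r j) fun x t => by simp
  refine ⟨fun j v => (if ∃ i', Q i' = j then (if Q i0 = j then 1 else 0) else
        v j * a j i0 ^ 4 + a j i0 ^ 2) * G i0 v +
      (if ∃ i', Q i' = j then 0 else ∑ l, if l = i0 then 0 else (a j i0 * a j l) * T l v), ?_, ?_⟩
  · intro j r hr
    refine LineDeg.add ?_ ?_
    · have h1 : LineDeg 1 r (fun v : κ → K => if ∃ i', Q i' = j then
          (if Q i0 = j then (1 : K) else 0) else v j * a j i0 ^ 4 + a j i0 ^ 2) :=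
        LineDeg.ite _ (fun _ => (lineDeg_const 1 r _)) fun _ =>
          (((dv j r).mul_const _).add (lineDeg_const 1 r _))
      exact h1.mul (dG i0 r hr)
    · refine LineDeg.ite _ (fun _ => lineDeg_const 3 r _) fun _ => ?_
      refine LineDeg.sum fun l _ => ?_
      exact LineDeg.ite _ (fun _ => lineDeg_const 3 r _) fun _ => (dT l r hr).const_mul _
  · intro v
    have h1 := det_mul_det (pi a v) z w hi0
    show (X v).det * (Y v).det = _
    rw [h1, pi_diag a Q hQi hQ]
    simp only [mul_add, Finset.sum_add_distrib]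
    congr 1
    · rw [Finset.sum_mul]
      exact Finset.sum_congr rfl fun j _ => by ring
    · have h2 : ∀ j, Zf Q j v * (if ∃ i', Q i' = j then 0 else
          ∑ l, if l = i0 then 0 else (a j i0 * a j l) * T l v) =
          ∑ l, if l = i0 then 0 else (if ∃ i', Q i' = j then 0 else v j * (a j i0 * a j l)) * T l v := by
        intro j
        by_cases hj : ∃ i', Q i' = j
        · simp [hj]
        · simp only [hj, if_false, Zf, Finset.mul_sum]
          refine Finset.sum_congr rfl fun l _ => ?_
          by_cases hl : l = i0 <;> simp [hl, mul_assoc]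
      simp only [h2]
      rw [Finset.sum_comm]
      refine Finset.sum_congr rfl fun l _ => ?_
      by_cases hl : l = i0
      · simp [hl]
      · simp only [hl, if_false]
        rw [← Finset.sum_mul, pi_offdiag a Q hQ v (Ne.symm hl), ← mul_add]

/-- `delta_z ^ 2 + delta_z` in certificate form and the general product rule. -/
theorem cert_mul (a : κ → ι → K) (Q : ι → κ) (hQi : Function.Injective Q)
    (hQ : ∀ i, a (Q i) = Pi.single i 1) (z w : ι → Bool) :
    ∃ h : κ → (κ → K) → K, (∀ j r, IsRankOne (pi a r) → LineDeg 3 r (h j)) ∧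
      ∀ v, delta a z v * delta a w v = (if z = w then delta a z v else 0) + ∑ j, Zf Q j v * h j v := by
  by_cases hzw : z = w
  · subst hzw
    have hc : ∀ w : ι → Bool, ∃ h : κ → (κ → K) → K,
        (∀ j r, IsRankOne (pi a r) → LineDeg 3 r (h j)) ∧
        (w ≠ z → ∀ v, delta a z v * delta a w v = ∑ j, Zf Q j v * h j v) := by
      intro w
      by_cases hw : w = z
      · exact ⟨fun _ _ => 0, fun j r _ => lineDeg_const 3 r _, fun h => absurd hw h⟩
      · obtain ⟨h, h1, h2⟩ := cert a Q hQi hQ (Ne.symm hw)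
        exact ⟨h, h1, fun _ => h2⟩
    choose h h1 h2 using hc
    refine ⟨fun j v => ∑ w ∈ Finset.univ.erase z, h w j v, fun j r hr =>
      LineDeg.sum fun w _ => h1 w j r hr, fun v => ?_⟩
    simp only [if_true, Finset.mul_sum]
    rw [Finset.sum_comm]
    have e1 : ∀ w ∈ Finset.univ.erase z, ∑ j, Zf Q j v * h w j v = delta a z v * delta a w v :=
      fun w hw => (h2 w (Finset.ne_of_mem_erase hw) v).symm
    rw [Finset.sum_congr rfl e1, ← Finset.mul_sum]
    have e2 : delta a z v + ∑ w ∈ Finset.univ.erase z, delta a w v = 1 := by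
      rw [Finset.add_sum_erase Finset.univ (fun w => delta a w v) (Finset.mem_univ z), sum_delta]
    have e3 : ∑ w ∈ Finset.univ.erase z, delta a w v = 1 + delta a z v := by
      rw [← e2, add_comm, ← add_assoc, CharTwo.add_self_eq_zero, zero_add]
    rw [e3, mul_add, mul_one, ← add_assoc, CharTwo.add_self_eq_zero, zero_add]
  · obtain ⟨h, h1, h2⟩ := cert a Q hQi hQ hzw
    exact ⟨h, h1, fun v => by rw [if_neg hzw, zero_add, h2]⟩

/-- `delta_z * f~ = f z * delta_z` modulo certificates. -/
theorem cert_ext (a : κ → ι → K) (Q : ι → κ) (hQi : Function.Injective Q)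
    (hQ : ∀ i, a (Q i) = Pi.single i 1) (z : ι → Bool) (f : (ι → Bool) → K) :
    ∃ h : κ → (κ → K) → K, (∀ j r, IsRankOne (pi a r) → LineDeg 3 r (h j)) ∧
      ∀ v, delta a z v * ext a f v = f z * delta a z v + ∑ j, Zf Q j v * h j v := by
  choose h h1 h2 using fun w => cert_mul a Q hQi hQ z w
  refine ⟨fun j v => ∑ w, f w * h w j v, fun j r hr =>
    LineDeg.sum fun w _ => (h1 w j r hr).const_mul _, fun v => ?_⟩
  have e : ∀ w, delta a z v * (f w * delta a w v) =
      (if z = w then f z * delta a z v else 0) + ∑ j, Zf Q j v * (f w * h w j v) := by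
    intro w
    rw [mul_left_comm, h2 w v, mul_add, Finset.mul_sum]
    congr 1
    · by_cases hzw : z = w
      · subst hzw; simp
      · simp [hzw]
    · exact Finset.sum_congr rfl fun j _ => by ring
  simp only [ext, Finset.mul_sum, e, Finset.sum_add_distrib]
  rw [Finset.sum_ite_eq, if_pos (Finset.mem_univ z), Finset.sum_comm]

/-! ### Three blocks and a system of equations `f1 b * f2 c + f3 d = β` -/

/-- A point of three blocks. -/
abbrev V3 (κ K : Type*) := Fin 3 → κ → K

theorem LineDeg.block {d : ℕ} {r : V3 κ K} (b : Fin 3) {g : (κ → K) → K}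
    (hg : LineDeg d (r b) g) : LineDeg d r (fun y : V3 κ K => g (y b)) :=
  hg.comp (fun y : V3 κ K => y b) fun x t => by simp

/-- `∑ δ_b(x1) δ_c(x2) δ_d(x3)` over the system, weighted. -/
def psi (a : κ → ι → K) {σ : Type*} [Fintype σ] (E : σ → Fin 3 → (ι → Bool)) (c : σ → K)
    (y : V3 κ K) : K := ∑ e, c e * ∏ b, delta a (E e b) (y b)

/-- **The certificate of the system.**  If `f1 b * f2 c + f3 d = β` for all equations of the system
then `psi_* (F1 F2 + F3) + psi_β` is a combination of the `Z`-functions of the three blocks with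
coefficients of degree at most six along lines all of whose block directions are of rank one. -/
theorem cert_system (a : κ → ι → K) (Q : ι → κ) (hQi : Function.Injective Q)
    (hQ : ∀ i, a (Q i) = Pi.single i 1) {σ : Type*} [Fintype σ] (E : σ → Fin 3 → (ι → Bool))
    (β : σ → K) (f : Fin 3 → (ι → Bool) → K)
    (hf : ∀ e, f 0 (E e 0) * f 1 (E e 1) + f 2 (E e 2) = β e) :
    ∃ h : Fin 3 → κ → V3 κ K → K,
      (∀ b j (r : V3 κ K), (∀ b', IsRankOne (pi a (r b'))) → LineDeg 6 r (h b j)) ∧
      ∀ y : V3 κ K, psi a E (fun _ => 1) y *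
          (ext a (f 0) (y 0) * ext a (f 1) (y 1) + ext a (f 2) (y 2)) + psi a E β y =
        ∑ b, ∑ j, Zf Q j (y b) * h b j y := by
  choose h h1 h2 using fun (e : σ) (b : Fin 3) => cert_ext a Q hQi hQ (E e b) (f b)
  let H : σ → Fin 3 → κ → V3 κ K → K := fun e b j y =>
    if b = 0 then h e 0 j (y 0) * (delta a (E e 1) (y 1) * ext a (f 1) (y 1)) * delta a (E e 2) (y 2)
    else if b = 1 then f 0 (E e 0) * (delta a (E e 0) (y 0) * h e 1 j (y 1) * delta a (E e 2) (y 2))
    else delta a (E e 0) (y 0) * delta a (E e 1) (y 1) * h e 2 j (y 2)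
  refine ⟨fun b j y => ∑ e, H e b j y, fun b j r hr => LineDeg.sum fun e _ => ?_, fun y => ?_⟩
  · have dd : ∀ b', LineDeg 1 r (fun y : V3 κ K => delta a (E e b') (y b')) := fun b' =>
      (lineDeg_delta a _ (hr b')).block b'
    have de : ∀ b', LineDeg 1 r (fun y : V3 κ K => ext a (f b') (y b')) := fun b' =>
      (lineDeg_ext a _ (hr b')).block b'
    have dh : ∀ b', LineDeg 3 r (fun y : V3 κ K => h e b' j (y b')) := fun b' =>
      (h1 e b' j _ (hr b')).block b'
    fin_cases b
    · exact ((dh 0).mul ((dd 1).mul (de 1))).mul (dd 2)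
    · exact ((((dd 0).mul (dh 1)).mul (dd 2)).const_mul _).mono (by norm_num)
    · exact (((dd 0).mul (dd 1)).mul (dh 2)).mono (by norm_num)
  · have key : ∀ e, (1 * ∏ b, delta a (E e b) (y b)) *
        (ext a (f 0) (y 0) * ext a (f 1) (y 1) + ext a (f 2) (y 2)) +
        β e * ∏ b, delta a (E e b) (y b) = ∑ b, ∑ j, Zf Q j (y b) * H e b j y := by
      intro e
      simp only [Fin.prod_univ_three, Fin.sum_univ_three, one_mul]
      have E0 := h2 e 0 (y 0)
      have E1 := h2 e 1 (y 1)
      have E2 := h2 e 2 (y 2)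
      have s0 : ∑ j, Zf Q j (y 0) * H e 0 j y = (∑ j, Zf Q j (y 0) * h e 0 j (y 0)) *
          (delta a (E e 1) (y 1) * ext a (f 1) (y 1)) * delta a (E e 2) (y 2) := by
        simp only [H, if_true, Finset.sum_mul]
        exact Finset.sum_congr rfl fun j _ => by ring
      have s1 : ∑ j, Zf Q j (y 1) * H e 1 j y = f 0 (E e 0) * (delta a (E e 0) (y 0) *
          (∑ j, Zf Q j (y 1) * h e 1 j (y 1)) * delta a (E e 2) (y 2)) := by
        simp only [H, one_ne_zero, if_false, if_true, Finset.sum_mul, Finset.mul_sum]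
        exact Finset.sum_congr rfl fun j _ => by ring
      have s2 : ∑ j, Zf Q j (y 2) * H e 2 j y = delta a (E e 0) (y 0) * delta a (E e 1) (y 1) *
          (∑ j, Zf Q j (y 2) * h e 2 j (y 2)) := by
        have n1 : (2 : Fin 3) ≠ 0 := by decide
        have n2 : (2 : Fin 3) ≠ 1 := by decide
        simp only [H, n1, n2, if_false, Finset.mul_sum]
        exact Finset.sum_congr rfl fun j _ => by ring
      rw [s0, s1, s2]
      have hb := hf e
      set d0 := delta a (E e 0) (y 0)
      set d1 := delta a (E e 1) (y 1)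
      set d2 := delta a (E e 2) (y 2)
      set F0 := ext a (f 0) (y 0)
      set F1 := ext a (f 1) (y 1)
      set F2 := ext a (f 2) (y 2)
      set S0 := ∑ j, Zf Q j (y 0) * h e 0 j (y 0)
      set S1 := ∑ j, Zf Q j (y 1) * h e 1 j (y 1)
      set S2 := ∑ j, Zf Q j (y 2) * h e 2 j (y 2)
      have c2 : (2 : K) = 0 := CharTwo.two_eq_zero
      have : d0 * d1 * d2 * (F0 * F1 + F2) + β e * (d0 * d1 * d2) =
          (d0 * F0) * (d1 * F1) * d2 + d0 * d1 * (d2 * F2) + β e * (d0 * d1 * d2) := by ring
      rw [this, E0, E1, E2, ← hb]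
      linear_combination (f 0 (E e 0) * f 1 (E e 1) * d0 * d1 * d2 + f 2 (E e 2) * d0 * d1 * d2) * c2
    simp only [psi, Finset.sum_mul]
    rw [← Finset.sum_add_distrib, Finset.sum_congr rfl fun e _ => key e, Finset.sum_comm]
    refine Finset.sum_congr rfl fun b _ => ?_
    rw [Finset.sum_comm]
    exact Finset.sum_congr rfl fun j _ => by rw [Finset.mul_sum]

end Char2

end Vale.Agent.P318.Cert
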