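/-
P318 (helper340): `LineDeg` (Cert.lean) and `Low` (S/Defs.lean).
-/
import Vale.Agent.P318.S.Defs
import Vale.Agent.P318.H340.Cert

namespace Vale.Agent.P318.Cert

open Polynomial

/-- Values of a polynomial of degree at most `d`. -/
theorem low_of_poly {K : Type*} [CommRing K] {d : ℕ} (p : K[X]) (hp : p.natDegree ≤ d) :
    S.Low d fun u : K => p.eval u :=
  ⟨fun j => p.coeff j, fun u => by
    show p.eval u = _
    rw [S.crv, Polynomial.eval_eq_sum_range' (Nat.lt_succ_of_le hp),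
      ← Fin.sum_univ_eq_sum_range (fun i => p.coeff i * u ^ i)]
    exact Finset.sum_congr rfl fun j _ => by rw [smul_eq_mul, mul_comm]⟩

theorem poly_of_low {K : Type*} [CommRing K] {d : ℕ} {h : K → K} (hl : S.Low d h) :
    ∃ p : K[X], p.natDegree ≤ d ∧ ∀ u, h u = p.eval u := by
  obtain ⟨c, hc⟩ := hl
  refine ⟨∑ j : Fin (d + 1), C (c j) * X ^ (j : ℕ), ?_, fun u => ?_⟩
  · refine Polynomial.natDegree_sum_le_of_forall_le _ _ fun j _ => ?_
    exact (natDegree_C_mul_X_pow_le _ _).trans (Nat.lt_succ_iff.1 j.2)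
  · rw [hc u, S.crv, eval_finsetSum]
    exact Finset.sum_congr rfl fun j _ => by
      rw [smul_eq_mul, eval_mul, eval_C, eval_pow, eval_X, mul_comm]

theorem lineDeg_iff_low {K V : Type*} [CommRing K] [AddCommGroup V] [Module K V] {d : ℕ} {r : V}
    {g : V → K} : LineDeg d r g ↔ ∀ y, S.Low d fun u : K => g (y + u • r) := by
  refine ⟨fun h y => ?_, fun h y => poly_of_low (h y)⟩
  obtain ⟨p, hp, hg⟩ := h y
  obtain ⟨c, hc⟩ := low_of_poly p hp
  exact ⟨c, fun u => (hg u).trans (hc u)⟩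

end Vale.Agent.P318.Cert
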