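/-
P318 (helper340): the concrete geometry of one block satisfies `GeoOK`.
-/
import Vale.Agent.P318.S.Mid
import Vale.Agent.P318.H340.Bridge
import Vale.Agent.P318.H591.Dirs

namespace Vale.Agent.P318.Cert

set_option linter.unusedSectionVars false

open Matrix Polynomial

/-! ### Degree along sums of directions, finite field -/

section AddDir

variable {K V : Type*} [Field K] [Fintype K] [AddCommGroup V] [Module K V]

theorem exists_poly_of_fun (f : K → K) :
    ∃ p : K[X], p.natDegree ≤ Fintype.card K - 1 ∧ ∀ u, f u = p.eval u := by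
  classical
  refine ⟨Lagrange.interpolate Finset.univ id f, ?_, fun u => ?_⟩
  · rw [natDegree_le_iff_degree_le]
    have := Lagrange.degree_interpolate_le (s := Finset.univ) (v := id) f (Set.injOn_id _)
    simpa using this
  · have := Lagrange.eval_interpolate_at_node (s := Finset.univ) (v := id) f (Set.injOn_id _)
      (Finset.mem_univ u)
    simpa using this.symm

theorem LineDeg.add_dir {d e : ℕ} {r s : V} {g : V → K} (hr : LineDeg d r g)
    (hs : LineDeg e s g) : LineDeg (d + e) (r + s) g := by
  classical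
  intro x
  by_cases hd : Fintype.card K ≤ d
  · obtain ⟨p, hp, hg⟩ := exists_poly_of_fun (fun u : K => g (x + u • (r + s)))
    exact ⟨p, by omega, hg⟩
  · rw [not_le] at hd
    obtain ⟨S, -, hS⟩ := Finset.exists_subset_card_eq (s := (Finset.univ : Finset K)) (n := d + 1)
      (by simpa using hd)
    choose p hp hg using fun a : K => hs (x + a • r)
    refine ⟨∑ a ∈ S, Lagrange.basis S id a * p a, ?_, fun u => ?_⟩
    · refine natDegree_sum_le_of_forall_le _ _ fun a ha => natDegree_mul_le.trans ?_
      refine add_le_add ?_ (hp a)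
      rw [Lagrange.natDegree_basis (Set.injOn_id _) ha, hS]
      simp
    · obtain ⟨P, hP, hG⟩ := hr (x + u • s)
      have h1 : P = Lagrange.interpolate S id fun a => P.eval a := by
        refine Lagrange.eq_interpolate (Set.injOn_id _) ?_
        rw [hS]
        refine (degree_le_natDegree).trans_lt ?_
        exact_mod_cast Nat.lt_succ_of_le hP
      have h2 : ∀ a : K, P.eval a = (p a).eval u := fun a => by
        rw [← hG, ← hg]
        congr 1
        abel
      have h3 : g (x + u • (r + s)) = P.eval u := by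
        rw [← hG, smul_add]
        congr 1
        abel
      rw [h3, h1, Lagrange.interpolate_apply, eval_finsetSum, eval_finsetSum]
      refine Finset.sum_congr rfl fun a _ => ?_
      rw [eval_mul, eval_mul, eval_C, h2 a, mul_comm]

theorem LineDeg.sum_dir {α : Type*} {d : ℕ} {S : Finset α} {r : α → V} {g : V → K}
    (hr : ∀ i ∈ S, LineDeg d (r i) g) : LineDeg (S.card * d) (∑ i ∈ S, r i) g := by
  classical
  induction S using Finset.induction_on with
  | empty =>
    intro x
    exact ⟨C (g x), by simp, fun t => by simp⟩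
  | insert i S hi ih =>
    rw [Finset.sum_insert hi, Finset.card_insert_of_notMem hi, add_mul, one_mul, add_comm _ d]
    exact (hr i (Finset.mem_insert_self i S)).add_dir
      (ih fun j hj => hr j (Finset.mem_insert_of_mem hj))

end AddDir

section RankSum

variable {K ι : Type*} [Field K] [Fintype K] [Fintype ι] [DecidableEq ι]

/-- `R` is a sum of `t` rank one matrices. -/
def IsRankSum (t : ℕ) (R : Matrix ι ι K) : Prop :=
  ∃ r : Fin t → Matrix ι ι K, (∀ l, IsRankOne (r l)) ∧ R = ∑ l, r l

theorem lineDeg_of_rankSum {V : Type*} [AddCommGroup V] [Module K V] {t : ℕ} {r : V}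
    {M : V → Matrix ι ι K} {R : Matrix ι ι K} (hR : IsRankSum t R)
    (hM : ∀ x (u : K), M (x + u • r) = M x + u • R) {g : Matrix ι ι K → K}
    (hg : ∀ R : Matrix ι ι K, IsRankOne R → LineDeg 1 R g) : LineDeg t r (fun v => g (M v)) := by
  obtain ⟨ρ, h1, rfl⟩ := hR
  have h2 := LineDeg.sum_dir (S := Finset.univ) (r := ρ) fun l _ => hg _ (h1 l)
  rw [mul_one, Finset.card_univ, Fintype.card_fin] at h2
  exact h2.comp M hM

theorem lineDeg_det' {V : Type*} [AddCommGroup V] [Module K V] {t : ℕ} {r : V}
    {M : V → Matrix ι ι K} {R : Matrix ι ι K} (hR : IsRankSum t R)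
    (hM : ∀ x (u : K), M (x + u • r) = M x + u • R) : LineDeg t r (fun v => (M v).det) :=
  lineDeg_of_rankSum (g := Matrix.det) hR hM fun _ h =>
    lineDeg_det (M := fun A => A) h fun _ _ => rfl

theorem lineDeg_adjugate' {V : Type*} [AddCommGroup V] [Module K V] {t : ℕ} {r : V}
    {M : V → Matrix ι ι K} {R : Matrix ι ι K} (hR : IsRankSum t R)
    (hM : ∀ x (u : K), M (x + u • r) = M x + u • R) (i j : ι) :
    LineDeg t r (fun v => (M v).adjugate i j) :=
  lineDeg_of_rankSum (g := fun A => A.adjugate i j) hR hM fun _ h =>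
    lineDeg_adjugate (M := fun A => A) h (fun _ _ => rfl) i j

end RankSum

section Cert

variable {K ι κ : Type*} [Field K] [Fintype K] [CharP K 2] [Fintype ι] [DecidableEq ι] [Fintype κ]
  [DecidableEq κ]

theorem lineDeg_delta' (a : κ → ι → K) (z : ι → Bool) {t : ℕ} {r : κ → K}
    (hr : IsRankSum t (pi a r)) : LineDeg t r (delta a z) :=
  lineDeg_det' (M := fun v => pi a v + dg K z) hr fun x u => by
    simp only [map_add, map_smul]; abel

theorem lineDeg_Zf (Q : ι → κ) (j : κ) (r : κ → K) : LineDeg 2 r (Zf (K := K) Q j) := by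
  have dv : LineDeg 1 r (fun v : κ → K => v j) := lineDeg_affine r _ (r j) fun x t => by simp
  have h1 : LineDeg 2 r fun v : κ → K => v j ^ 2 + v j := by
    have h := (dv.mul dv).add (dv.mono (by norm_num))
    simpa only [sq] using h
  exact LineDeg.ite _ (fun _ => h1) fun _ => dv.mono (by norm_num)

/-- **Certificate lemma** for sums of `t` rank one directions. -/
theorem cert' (a : κ → ι → K) (Q : ι → κ) (hQi : Function.Injective Q)
    (hQ : ∀ i, a (Q i) = Pi.single i 1) {z w : ι → Bool} (hzw : z ≠ w) {t : ℕ} (ht : 1 ≤ t) :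
    ∃ h : κ → (κ → K) → K, (∀ j r, IsRankSum t (pi a r) → LineDeg (3 * t) r (h j)) ∧
      ∀ v, delta a z v * delta a w v = ∑ j, Zf Q j v * h j v := by
  obtain ⟨i0, hi0⟩ := Function.ne_iff.1 hzw
  let X : (κ → K) → Matrix ι ι K := fun v => pi a v + dg K z
  let Y : (κ → K) → Matrix ι ι K := fun v => pi a v + dg K w
  let G : ι → (κ → K) → K := fun l v => ((Y v).adjugate * (X v).adjugate) l i0
  let T : ι → (κ → K) → K := fun l v => ∑ j, (Y v l j * G j v) + X v i0 i0 * G l v
  have hX : ∀ r x (t : K), X (x + t • r) = X x + t • pi a r := fun r x t => by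
    simp only [X, map_add, map_smul]; abel
  have hY : ∀ r x (t : K), Y (x + t • r) = Y x + t • pi a r := fun r x t => by
    simp only [Y, map_add, map_smul]; abel
  have dG : ∀ l r, IsRankSum t (pi a r) → LineDeg (t + t) r (G l) := fun l r hr => by
    have : G l = fun v => ∑ m, (Y v).adjugate l m * (X v).adjugate m i0 := by
      funext v; simp [G, Matrix.mul_apply]
    rw [this]
    exact LineDeg.sum fun m _ =>
      (lineDeg_adjugate' hr (hY r) l m).mul (lineDeg_adjugate' hr (hX r) m i0)
  have dX : ∀ i i' r, LineDeg 1 r (fun v => X v i i') := fun i i' r =>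
    lineDeg_affine r _ (pi a r i i') fun x t => by simp [hX]
  have dY : ∀ i i' r, LineDeg 1 r (fun v => Y v i i') := fun i i' r =>
    lineDeg_affine r _ (pi a r i i') fun x t => by simp [hY]
  have dT : ∀ l r, IsRankSum t (pi a r) → LineDeg (1 + (t + t)) r (T l) := fun l r hr =>
    (LineDeg.sum fun j _ => (dY l j r).mul (dG j r hr)).add ((dX i0 i0 r).mul (dG l r hr))
  have dv : ∀ (j : κ) r, LineDeg 1 r (fun v : κ → K => v j) := fun j r =>
    lineDeg_affine r _ (r j) fun x t => by simp
  refine ⟨fun j v => (if ∃ i', Q i' = j then (if Q i0 = j then 1 else 0) else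
        v j * a j i0 ^ 4 + a j i0 ^ 2) * G i0 v +
      (if ∃ i', Q i' = j then 0 else ∑ l, if l = i0 then 0 else (a j i0 * a j l) * T l v), ?_, ?_⟩
  · intro j r hr
    refine LineDeg.mono (d := 1 + (t + t)) (LineDeg.add ?_ ?_) (by omega)
    · have h1 : LineDeg 1 r (fun v : κ → K => if ∃ i', Q i' = j then
          (if Q i0 = j then (1 : K) else 0) else v j * a j i0 ^ 4 + a j i0 ^ 2) :=
        LineDeg.ite _ (fun _ => (lineDeg_const 1 r _)) fun _ =>
          (((dv j r).mul_const _).add (lineDeg_const 1 r _))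
      exact h1.mul (dG i0 r hr)
    · refine LineDeg.ite _ (fun _ => lineDeg_const _ r _) fun _ => ?_
      refine LineDeg.sum fun l _ => ?_
      exact LineDeg.ite _ (fun _ => lineDeg_const _ r _) fun _ => (dT l r hr).const_mul _
  · intro v
    have h1 := det_mul_det (pi a v) z w hi0
    show (X v).det * (Y v).det = _
    rw [h1, pi_diag a Q hQi hQ]
    simp only [mul_add, Finset.sum_add_distrib]
    congr 1
    · rw [Finset.sum_mul]
      exact Finset.sum_congr rfl fun j _ => by ring
    · have h2 : ∀ j, Zf Q j v * (if ∃ i', Q i' = j then 0 else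
          ∑ l, if l = i0 then 0 else (a j i0 * a j l) * T l v) =
          ∑ l, if l = i0 then 0 else (if ∃ i', Q i' = j then 0 else v j * (a j i0 * a j l)) * T l v := by
        intro j
        by_cases hj : ∃ i', Q i' = j
        · simp [hj]
        · simp only [hj, if_false, Zf, Finset.mul_sum]
          refine Finset.sum_congr rfl fun l _ => ?_
          by_cases hl : l = i0 <;> simp [hl, mul_assoc]
      simp only [h2]
      rw [Finset.sum_comm]
      refine Finset.sum_congr rfl fun l _ => ?_
      by_cases hl : l = i0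
      · simp [hl]
      · simp only [hl, if_false]
        rw [← Finset.sum_mul, pi_offdiag a Q hQ v (Ne.symm hl), ← mul_add]

/-- The general product rule. -/
theorem cert_mul' (a : κ → ι → K) (Q : ι → κ) (hQi : Function.Injective Q)
    (hQ : ∀ i, a (Q i) = Pi.single i 1) (z w : ι → Bool) {t : ℕ} (ht : 1 ≤ t) :
    ∃ h : κ → (κ → K) → K, (∀ j r, IsRankSum t (pi a r) → LineDeg (3 * t) r (h j)) ∧
      ∀ v, delta a z v * delta a w v = (if z = w then delta a z v else 0) + ∑ j, Zf Q j v * h j v := by
  by_cases hzw : z = w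
  · subst hzw
    have hc : ∀ w : ι → Bool, ∃ h : κ → (κ → K) → K,
        (∀ j r, IsRankSum t (pi a r) → LineDeg (3 * t) r (h j)) ∧
        (w ≠ z → ∀ v, delta a z v * delta a w v = ∑ j, Zf Q j v * h j v) := by
      intro w
      by_cases hw : w = z
      · exact ⟨fun _ _ => 0, fun j r _ => lineDeg_const _ r _, fun h => absurd hw h⟩
      · obtain ⟨h, h1, h2⟩ := cert' a Q hQi hQ (Ne.symm hw) ht
        exact ⟨h, h1, fun _ => h2⟩
    choose h h1 h2 using hc
    refine ⟨fun j v => ∑ w ∈ Finset.univ.erase z, h w j v, fun j r hr =>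
      LineDeg.sum fun w _ => h1 w j r hr, fun v => ?_⟩
    simp only [if_true, Finset.mul_sum]
    rw [Finset.sum_comm]
    have e1 : ∀ w ∈ Finset.univ.erase z, ∑ j, Zf Q j v * h w j v = delta a z v * delta a w v :=
      fun w hw => (h2 w (Finset.ne_of_mem_erase hw) v).symm
    rw [Finset.sum_congr rfl e1, ← Finset.mul_sum]
    have e2 : delta a z v + ∑ w ∈ Finset.univ.erase z, delta a w v = 1 := by
      rw [Finset.add_sum_erase Finset.univ (fun w => delta a w v) (Finset.mem_univ z), sum_delta]
    have e3 : ∑ w ∈ Finset.univ.erase z, delta a w v = 1 + delta a z v := by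
      rw [← e2, add_comm, ← add_assoc, CharTwo.add_self_eq_zero, zero_add]
    rw [e3, mul_add, mul_one, ← add_assoc, CharTwo.add_self_eq_zero, zero_add]
  · obtain ⟨h, h1, h2⟩ := cert' a Q hQi hQ hzw ht
    exact ⟨h, h1, fun v => by rw [if_neg hzw, zero_add, h2]⟩

end Cert

end Vale.Agent.P318.Cert

namespace Vale.Agent.P318.S

open Finset
open scoped BigOperators

variable {F : Type*} [Field F] [Fintype F] [DecidableEq F] [CharP F 2] {n k : ℕ}

omit [DecidableEq F] [Fintype F] in
theorem pi_eq_pim (a : Fin n → Fin k → F) (v : Fin n → F) (i i' : Fin k) :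
    Cert.pi a v i i' = H591.pim a v i i' := Cert.pi_apply a v i i'

theorem isRankSum_bdir (a : Fin n → Fin k → F) (t : ℕ)
    (p : H591.BIx (LinearMap.ker (H591.pim a)) t) :
    Cert.IsRankSum t (Cert.pi a (H591.bdir (LinearMap.ker (H591.pim a)) t p)) := by
  refine ⟨fun l => Cert.pi a (H591.el (p.1.1 l)), fun l => ?_, ?_⟩
  · refine ⟨((p.1.1 l).1 : F) • a (p.1.1 l).2, a (p.1.1 l).2, ?_⟩
    ext i i'
    show Cert.pi a (H591.el (p.1.1 l)) i i' = _
    rw [Cert.pi_apply, Finset.sum_eq_single (p.1.1 l).2]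
    · simp [H591.el, Matrix.vecMulVec, mul_assoc]
    · intro j _ hj
      simp [H591.el, hj]
    · simp
  · rw [H591.bdir, H591.blk, map_add, map_sum]
    have h0 : Cert.pi a ((p.1.2 : Fin n → F)) = 0 := by
      ext i i'
      rw [pi_eq_pim]
      have := p.1.2.2
      rw [LinearMap.mem_ker] at this
      rw [this]
      rfl
    rw [h0, add_zero]

/-- The geometry of one block. -/
theorem geoOK_of_good {θ : ℝ} (a : Fin n → Fin k → F) (ha : H321.Good θ a)
    (Q : Fin k → Fin n) (hQ : Function.Injective Q) (haQ : ∀ i, a (Q i) = Pi.single i 1)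
    (t : ℕ) (ht : 1 ≤ t) (htn : t ≤ n) (hl : H591.lamB F θ t ≤ 1 / 4)
    [inst : Fintype (H591.BIx (LinearMap.ker (H591.pim a)) t)] :
    GeoOK t (6 * H591.lamB F θ t) (Cert.pt Q) (Cert.delta a) (Cert.Zf Q)
      (H591.bdir (LinearMap.ker (H591.pim a)) t) := by
  classical
  have hn : 0 < n := by omega
  have : Nonempty (Fin n) := ⟨⟨0, hn⟩⟩
  refine ⟨fun i => H591.bdir_ne_zero _ _ i, ?_, fun z w => Cert.delta_pt a Q haQ z w,
    fun j z => Cert.Zf_pt Q hQ z j, fun z i v => ?_, fun j i v => ?_, fun z w => ?_⟩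
  · have h := H591.charBd_bdir (H591.hit_ker ha) (t := t) (by simpa using htn) hl
    have e : inst = Subtype.fintype (fun p : (Fin t → {c : F // c ≠ 0} × Fin n) ×
        LinearMap.ker (H591.pim a) => H591.blk (LinearMap.ker (H591.pim a)) t p ≠ 0) :=
      Subsingleton.elim _ _
    subst e
    exact h
  · exact Cert.lineDeg_iff_low.1 (Cert.lineDeg_delta' a z (isRankSum_bdir a t i)) v
  · exact Cert.lineDeg_iff_low.1 (Cert.lineDeg_Zf Q j _) v
  · obtain ⟨h, h1, h2⟩ := Cert.cert_mul' a Q hQ haQ z w ht
    exact ⟨h, fun j i v => Cert.lineDeg_iff_low.1 (h1 j _ (isRankSum_bdir a t i)) v, h2⟩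

end Vale.Agent.P318.S
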