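/-
P318 (helper340): Ryser's formula in characteristic two, where determinant = permanent.
-/
import Mathlib

namespace Vale.Agent.P318.Cert

open Matrix

variable {K ι : Type*} [CommRing K] [CharP K 2] [Fintype ι] [DecidableEq ι]

/-- In characteristic two the determinant is the permanent. -/
theorem det_eq_sum_perm (M : Matrix ι ι K) :
    M.det = ∑ σ : Equiv.Perm ι, ∏ i, M i (σ i) := by
  rw [← det_transpose, det_apply]
  refine Finset.sum_congr rfl fun σ _ => ?_
  rcases Int.units_eq_one_or (Equiv.Perm.sign σ) with h | h <;> rw [h]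
  · simp
  · simp [CharTwo.neg_eq]

/-- **Ryser's formula in characteristic two.** -/
theorem det_ryser (M : Matrix ι ι K) :
    M.det = ∑ S : Finset ι, ∏ i, ∑ j ∈ S, M i j := by
  have h1 : ∀ S : Finset ι, ∏ i, ∑ j ∈ S, M i j =
      ∑ g : ι → ι, if ∀ i, g i ∈ S then ∏ i, M i (g i) else 0 := by
    intro S
    rw [Finset.prod_univ_sum (fun _ => S) (fun i j => M i j)]
    rw [← Finset.sum_filter]
    refine Finset.sum_congr ?_ fun _ _ => rfl
    ext g
    simp [Fintype.mem_piFinset]
  simp only [h1]
  rw [Finset.sum_comm]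
  have h2 : ∀ g : ι → ι, (∑ S : Finset ι, if ∀ i, g i ∈ S then ∏ i, M i (g i) else 0) =
      if Function.Bijective g then ∏ i, M i (g i) else 0 := by
    intro g
    by_cases hg : Function.Bijective g
    · rw [if_pos hg, Finset.sum_eq_single Finset.univ]
      · simp
      · intro S _ hS
        rw [if_neg]
        intro h
        apply hS
        refine Finset.eq_univ_iff_forall.2 fun j => ?_
        obtain ⟨i, rfl⟩ := hg.2 j
        exact h i
      · simp
    · rw [if_neg hg]
      have hns : ¬ Function.Surjective g := fun h => hg ⟨Finite.injective_iff_surjective.2 h, h⟩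
      obtain ⟨j0, hj0⟩ : ∃ j0, ∀ i, g i ≠ j0 := by
        by_contra hcon
        push Not at hcon
        exact hns fun j => by obtain ⟨i, hi⟩ := hcon j; exact ⟨i, hi⟩
      refine Finset.sum_involution (fun S _ => symmDiff S {j0}) ?_ ?_ ?_ ?_
      · intro S _
        have : (∀ i, g i ∈ symmDiff S {j0}) ↔ ∀ i, g i ∈ S := by
          refine forall_congr' fun i => ?_
          simp [Finset.mem_symmDiff, hj0 i]
        simp only [this]
        exact CharTwo.add_self_eq_zero _
      · intro S _ _ h
        have : j0 ∈ symmDiff S {j0} ↔ j0 ∉ S := by simp [Finset.mem_symmDiff]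
        rw [h] at this
        tauto
      · intro S _; exact Finset.mem_univ _
      · intro S _
        rw [symmDiff_assoc, symmDiff_self, symmDiff_bot]
  simp only [h2]
  rw [det_eq_sum_perm, ← Finset.sum_filter]
  refine Finset.sum_bij (fun σ _ => (σ : ι → ι)) ?_ ?_ ?_ ?_
  · intro σ _; simp
  · intro σ _ τ _ h; exact Equiv.coe_fn_injective h
  · intro g hg
    exact ⟨Equiv.ofBijective g (Finset.mem_filter.1 hg).2, Finset.mem_univ _, rfl⟩
  · intro σ _; rfl

/-- Ryser's formula with `S` running over the numbers below `2 ^ k`. -/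
theorem det_ryser_nat {k : ℕ} (M : Matrix (Fin k) (Fin k) K) :
    M.det = ∑ m ∈ Finset.range (2 ^ k), ∏ i : Fin k, ∑ j : Fin k,
      if m.testBit j then M i j else 0 := by
  rw [det_ryser, ← Fin.sum_univ_eq_sum_range (fun m => ∏ i : Fin k, ∑ j : Fin k,
      if m.testBit j then M i j else 0)]
  symm
  let φ : Fin (2 ^ k) → Finset (Fin k) := fun m => Finset.univ.filter fun j : Fin k =>
    (m : ℕ).testBit j
  have hφ : Function.Injective φ := by
    intro m m' h
    refine Fin.ext (Nat.eq_of_testBit_eq fun j => ?_)
    by_cases hj : j < k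
    · have := congrArg (fun s => (⟨j, hj⟩ : Fin k) ∈ s) h
      simp only [φ, Finset.mem_filter, Finset.mem_univ, true_and, eq_iff_iff] at this
      exact Bool.eq_iff_iff.2 this
    · have e : ∀ m : Fin (2 ^ k), (m : ℕ).testBit j = false := fun m =>
        Nat.testBit_lt_two_pow (m.2.trans_le
          (Nat.pow_le_pow_right (by norm_num) (not_lt.1 hj)))
      rw [e m, e m']
  have hbij : Function.Bijective φ :=
    (Fintype.bijective_iff_injective_and_card φ).2 ⟨hφ, by simp⟩
  refine Fintype.sum_bijective φ hbij _ _ fun m => ?_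
  refine Finset.prod_congr rfl fun i _ => ?_
  rw [Finset.sum_filter]

end Vale.Agent.P318.Cert
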